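import Vale.Agent.N058B.Join

open Vale.Agent.N058B in
/-- (1) A linear condition over `ℝ ⊗[ℚ] ℝ` decides, for any relation `E` on a finite set, whether
`E`-related points can be given equal colours; the classes must lie on concentric spheres, and this
suffices for algebraic distances.
(2) Orbits of arbitrary groups of isometries can be made monochromatic, also jointly with an
invariant relation.
(3) Six equal chords of a circle whose ends cannot be given equal colours. -/
theorem Vale.Agent.Results.P058.A0Classes.result :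
    (∀ (d : ℕ) (A : Set (EuclideanSpace ℝ (Fin d))) (E : A → A → Prop), A.Finite →
      (ERamsey A E ↔ Balanced A E) ∧
      (ERamsey A E → ∃ z, ∀ a b : A, E a b → dist a.1 z = dist b.1 z) ∧
      ((∀ a b : A, IsAlgebraic ℚ (dist a b)) →
        (∃ z, ∀ a b : A, E a b → dist a.1 z = dist b.1 z) → ERamsey A E)) ∧
    (∀ (d : ℕ) (A : Set (EuclideanSpace ℝ (Fin d))), A.Finite →
      (ERamsey A fun a b => ∃ g : A ≃ᵢ A, g a = b) ∧
      ∀ (E : A → A → Prop) (G : Subgroup (A ≃ᵢ A)), (∀ g ∈ G, ∀ a b, E a b → E (g a) (g b)) →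
        ERamsey A E → ERamsey A fun a b => E a b ∨ ∃ g ∈ G, g a = b) ∧
    ∃ p : Fin 6 × Bool → EuclideanSpace ℝ (Fin 2), Function.Injective p ∧ (∀ i, ‖p i‖ = 1) ∧
      (∀ i j, dist (p (i, false)) (p (i, true)) = dist (p (j, false)) (p (j, true))) ∧
      ¬ ERamsey (Set.range p) fun a b => ∃ i, a.1 = p (i, false) ∧ b.1 = p (i, true) :=
  ⟨fun _ _ E hA => ⟨eRamsey_iff_balanced hA E,
      fun h => concentric_of_balanced ((eRamsey_iff_balanced hA E).1 h),
      fun halg ⟨z, hz⟩ => eRamsey_of_algebraic hA E halg z hz⟩,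
    fun _ _ hA => ⟨eRamsey_orbits hA, fun E G hG h => (eRamsey_iff_balanced hA _).2
      (balanced_join hA G hG ((eRamsey_iff_balanced hA E).1 h))⟩,
    exists_chords⟩
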