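import Vale.Agent.N058.Spec
import Vale.Agent.N058.Col
import Vale.Agent.N058.Sph

open Vale.Agent.P058 in
/-- (1) Ramsey is the same as sphere-Ramsey.
(2) `(2 n) ^ n` colours decide whether `n + 1` points are Ramsey.
(3) The Ramsey property passes to generic specializations of the squared distances. -/
theorem Vale.Agent.Results.P058.A0DistanceLift.result :
    (∀ (d n : ℕ) (x : Fin (n + 1) → EuclideanSpace ℝ (Fin d)),
      IsRamsey (Set.range x) ↔
        ∀ r : ℕ, ∃ (N : ℕ) (ρ : ℝ), 0 < ρ ∧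
          ∀ c : Metric.sphere (0 : EuclideanSpace ℝ (Fin N)) ρ → Fin r,
            ∃ y : Fin (n + 1) → Metric.sphere (0 : EuclideanSpace ℝ (Fin N)) ρ,
              (∀ i j, dist (y i) (y j) = dist (x i) (x j)) ∧ ∀ i j, c (y i) = c (y j)) ∧
    (∀ (d n : ℕ) (x : Fin (n + 1) → EuclideanSpace ℝ (Fin d)),
      IsRamsey (Set.range x) ↔
        ∃ N : ℕ, ∀ c : EuclideanSpace ℝ (Fin N) → Fin ((2 * n) ^ n),
          ∃ y : Fin (n + 1) → EuclideanSpace ℝ (Fin N),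
            (∀ i j, dist (y i) (y j) = dist (x i) (x j)) ∧ ∀ i j, c (y i) = c (y j)) ∧
    (∀ (d n : ℕ) (x : Fin (n + 1) → EuclideanSpace ℝ (Fin d)), IsRamsey (Set.range x) →
      ∃ f : MvPolynomial (Fin (n + 1) × Fin (n + 1)) ℚ,
        MvPolynomial.aeval (fun p => dist (x p.1) (x p.2) ^ 2) f ≠ 0 ∧
        ∀ (d' : ℕ) (x' : Fin (n + 1) → EuclideanSpace ℝ (Fin d')),
          (∀ g : MvPolynomial (Fin (n + 1) × Fin (n + 1)) ℚ,
            MvPolynomial.aeval (fun p => dist (x p.1) (x p.2) ^ 2) g = 0 →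
            MvPolynomial.aeval (fun p => dist (x' p.1) (x' p.2) ^ 2) g = 0) →
          MvPolynomial.aeval (fun p => dist (x' p.1) (x' p.2) ^ 2) f ≠ 0 →
          IsRamsey (Set.range x')) := by
  have h3 : ∀ (d n : ℕ) (x : Fin (n + 1) → EuclideanSpace ℝ (Fin d)),
      (∃ (N : ℕ) (ρ : ℝ), 0 < ρ ∧
        ∀ c : Metric.sphere (0 : EuclideanSpace ℝ (Fin N)) ρ → Fin ((2 * n) ^ n),
          ∃ y : Fin (n + 1) → Metric.sphere (0 : EuclideanSpace ℝ (Fin N)) ρ,
            (∀ i j, dist (y i) (y j) = dist (x i) (x j)) ∧ ∀ i j, c (y i) = c (y j)) →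
      ∃ N : ℕ, ∀ c : EuclideanSpace ℝ (Fin N) → Fin ((2 * n) ^ n),
        ∃ y : Fin (n + 1) → EuclideanSpace ℝ (Fin N),
          (∀ i j, dist (y i) (y j) = dist (x i) (x j)) ∧ ∀ i j, c (y i) = c (y j) := by
    rintro d n x ⟨N, ρ, -, H⟩
    refine ⟨N, fun c => ?_⟩
    obtain ⟨y, h1, h2⟩ := H fun v => c v
    exact ⟨fun i => y i, h1, h2⟩
  refine ⟨
    fun d n x => ⟨Vale.Agent.N058.sphereRamsey_of_isRamsey x, fun h => ?_⟩,
    fun d n x => ⟨fun h => h3 d n x (Vale.Agent.N058.sphereRamsey_of_isRamsey x h _),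
      fun ⟨_, H⟩ => Vale.Agent.N058.isRamsey_of_colours x H⟩,
    fun _ _ x h => Vale.Agent.N058.specialization x h⟩
  obtain ⟨N, H⟩ := h3 d n x (h _)
  exact Vale.Agent.N058.isRamsey_of_colours x H
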